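import Crest.Agent.R169.Pt.Sym
import Crest.Agent.R169.D7

/-!
# Row 169, F5 for `D7 k` (helper785)
-/

set_option autoImplicit false

namespace Crest.Agent.R169

namespace Pt

/-- F5: all points of `Proj T_7` are regular -/
theorem D7_ptReg (k : Type) [Field k] [IsAlgClosed k] [h : NeZero ((7 : ℕ) : k)] :
    AllPtRegular (D7 k) := by
  have h7 : (7 : k) ≠ 0 := by exact_mod_cast h.out
  exact allPtRegular h7 (D7 k) (fun m q => Iff.rfl) rfl rfl

end Pt

end Crest.Agent.R169
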