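import Crest.Agent.R169.PtDefs

/-!
# Row 169, F5: points of `Proj T`, basic calculus (helper785)
-/

set_option autoImplicit false

namespace Crest.Agent.R169

variable {k Q : Type} [Field k] [Field Q] [Algebra k Q]

namespace Pt

variable {D : TData k Q} {P : ℤ → Submodule k Q}

theorem F_mono (D : TData k Q) {m n : ℤ} (h : m ≤ n) : D.F m ≤ D.F n := by
  obtain ⟨d, rfl⟩ := Int.le.dest h
  induction d with
  | zero => simp
  | succ d ih =>
    refine le_trans (ih (by omega)) ?_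
    have := D.lat.mono (m + d)
    have e : m + d + 1 = m + ((d + 1 : ℕ) : ℤ) := by push_cast; ring
    rwa [e] at this

theorem one_memF (D : TData k Q) {m : ℤ} (hm : 0 ≤ m) : (1 : Q) ∈ D.F m := by
  refine F_mono D hm ?_
  rw [D.F_zero]
  exact Submodule.mem_span_singleton_self 1

theorem smul_one_memF (D : TData k Q) {m : ℤ} (hm : 0 ≤ m) (c : k) : algebraMap k Q c ∈ D.F m := by
  rw [Algebra.algebraMap_eq_smul_one]
  exact Submodule.smul_mem _ _ (one_memF D hm)

theorem pow_memF (D : TData k Q) {i : ℤ} {f : Q} (hf : f ∈ D.F i) (n : ℕ) :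
    f ^ n ∈ D.F (n * i) := by
  induction n with
  | zero => simpa using one_memF D le_rfl
  | succ n ih =>
    rw [pow_succ]
    have := D.mul_mem _ _ _ ih _ hf
    have e : (n : ℤ) * i + i = ((n + 1 : ℕ) : ℤ) * i := by push_cast; ring
    rwa [e] at this

theorem IsGId.mulr (hP : IsGId D P) {i j : ℤ} {f g : Q} (hf : f ∈ P i) (hg : g ∈ D.F j) :
    f * g ∈ P (i + j) := by
  have := hP.mul j i g hg f hf
  rwa [mul_comm, add_comm] at this

theorem IsGId.mono (hP : IsGId D P) {m n : ℤ} (h : m ≤ n) : P m ≤ P n := by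
  intro f hf
  have := hP.mul (n - m) m 1 (one_memF D (by omega)) f hf
  rw [one_mul] at this
  have e : n - m + m = n := by ring
  rwa [e] at this

theorem IsGId.pow (hP : IsGId D P) {i : ℤ} {f : Q} (hf : f ∈ P i) (n : ℕ) (hn : 1 ≤ n) :
    f ^ n ∈ P (n * i) := by
  obtain ⟨n, rfl⟩ := Nat.exists_eq_add_of_le hn
  have := hP.mul _ _ _ (pow_memF D (hP.le _ hf) n) _ hf
  rw [← pow_succ] at this
  have e : (n : ℤ) * i + i = ((1 + n : ℕ) : ℤ) * i := by push_cast; ring
  rw [e] at this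
  rwa [add_comm 1 n] at this ⊢

theorem IsPt.of_pow (hP : IsPt D P) {i : ℤ} {f : Q} (hf : f ∈ D.F i) (n : ℕ) (hn : 1 ≤ n)
    (h : f ^ n ∈ P (n * i)) : f ∈ P i := by
  induction n with
  | zero => omega
  | succ n ih =>
    rcases Nat.eq_zero_or_pos n with rfl | hn'
    · simpa using h
    · rw [pow_succ] at h
      have e : ((n + 1 : ℕ) : ℤ) * i = n * i + i := by push_cast; ring
      rw [e] at h
      rcases hP.prime _ _ _ (pow_memF D hf n) _ hf h with h1 | h1
      · exact ih hn' h1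
      · exact h1

/-- a graded prime of a point does not contain all of `1, u, v` -/
theorem IsPt.not_all (hP : IsPt D P) (h1 : (1 : Q) ∈ P 1) (hu : D.u ∈ P 1) (hv : D.v ∈ P 1) :
    False := by
  obtain ⟨m₁, hm₁⟩ := D.lat.gen
  obtain ⟨m₀, hm₀⟩ := hP.hilb
  obtain ⟨t, htF, htP, -⟩ := hm₀ (max m₀ m₁ + 1) (by omega)
  obtain ⟨a, ha, b, hb, c, hc, rfl⟩ := hm₁ (max m₀ m₁) (by omega) t htF
  apply htP
  have e1 : a ∈ P (max m₀ m₁ + 1) := by
    have := hP.mul _ _ a ha _ h1
    rwa [mul_one] at this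
  have e2 : D.u • b ∈ P (max m₀ m₁ + 1) := by
    have := hP.mul _ _ b hb _ hu
    rwa [mul_comm] at this
  have e3 : D.v • c ∈ P (max m₀ m₁ + 1) := by
    have := hP.mul _ _ c hc _ hv
    rwa [mul_comm] at this
  exact Submodule.add_mem _ (Submodule.add_mem _ e1 e2) e3

/-- graded automorphism of `T`, dehomogenised -/
structure GrAut (D : TData k Q) where
  φ : ℤ → (Q ≃ₗ[k] Q)
  map_mul : ∀ i j f g, φ (i + j) (f * g) = φ i f * φ j g
  memF : ∀ m f, φ m f ∈ D.F m ↔ f ∈ D.F m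

def GrAut.comp (a b : GrAut D) : GrAut D where
  φ m := (b.φ m).trans (a.φ m)
  map_mul i j f g := by
    simp [a.map_mul, b.map_mul]
  memF m f := by
    simp [a.memF, b.memF]

theorem IsPt.comap (hP : IsPt D P) (a : GrAut D) :
    IsPt D (fun m => (P m).comap (a.φ m).toLinearMap) where
  le m f hf := by
    rw [← a.memF]
    exact hP.le _ hf
  mul i j f hf g hg := by
    show a.φ (i + j) (f * g) ∈ P (i + j)
    rw [a.map_mul]
    exact hP.mul _ _ _ ((a.memF _ _).2 hf) _ hg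
  prime i j f hf g hg h := by
    have h' : a.φ (i + j) (f * g) ∈ P (i + j) := h
    rw [a.map_mul] at h'
    exact hP.prime _ _ _ ((a.memF _ _).2 hf) _ ((a.memF _ _).2 hg) h'
  hilb := by
    obtain ⟨m₀, hm₀⟩ := hP.hilb
    refine ⟨m₀, fun m hm => ?_⟩
    obtain ⟨t, htF, htP, ht⟩ := hm₀ m hm
    refine ⟨(a.φ m).symm t, ?_, ?_, ?_⟩
    · rw [← a.memF]; simpa using htF
    · intro h
      apply htP
      have : a.φ m ((a.φ m).symm t) ∈ P m := h
      simpa using this
    · intro f hf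
      obtain ⟨c, hc⟩ := ht (a.φ m f) ((a.memF _ _).2 hf)
      refine ⟨c, ?_⟩
      show a.φ m (f - c • (a.φ m).symm t) ∈ P m
      simpa using hc

theorem PtRegular.of_comap (a : GrAut D)
    (h : PtRegular D (fun m => (P m).comap (a.φ m).toLinearMap)) : PtRegular D P := by
  obtain ⟨d, e, l, x, y, s, hx, hy, hs, hsP, H⟩ := h
  refine ⟨d, e, l, a.φ d x, a.φ e y, a.φ l s, hx, hy, (a.memF _ _).2 hs, hsP, ?_⟩
  intro m f hf
  have hf' : (a.φ m).symm f ∈ (P m).comap (a.φ m).toLinearMap := by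
    show a.φ m ((a.φ m).symm f) ∈ P m
    simpa using hf
  obtain ⟨g, hg, h, hh, E⟩ := H m _ hf'
  refine ⟨a.φ (m + l - d) g, (a.memF _ _).2 hg, a.φ (m + l - e) h, (a.memF _ _).2 hh, ?_⟩
  have E2 := congrArg (a.φ (m + l)) E
  rw [map_add] at E2
  have e1 : m + l = l + m := by ring
  have e2 : l + m = d + (m + l - d) := by ring
  have e3 : l + m = e + (m + l - e) := by ring
  have h1 : a.φ (m + l) (s * (a.φ m).symm f) = a.φ l s * f := by
    rw [e1, a.map_mul]; simp
  have h2 : a.φ (m + l) (x * g) = a.φ d x * a.φ (m + l - d) g := by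
    conv_lhs => rw [e1, e2]
    rw [a.map_mul]
  have h3 : a.φ (m + l) (y * h) = a.φ e y * a.φ (m + l - e) h := by
    conv_lhs => rw [e1, e3]
    rw [a.map_mul]
  rw [h1, h2, h3] at E2
  exact E2

end Pt

end Crest.Agent.R169
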