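import Mathlib

/-!
# Row 169, F5: local generation of the maximal ideals of the Fermat cover `O` (helper785)
-/

set_option autoImplicit false

namespace Crest.Agent.R169

namespace Pt

section sat

variable {A : Type} [CommRing A]

/-- `I` saturated at the prime `𝔪` -/
def satI (𝔪 : Ideal A) [h𝔪 : 𝔪.IsPrime] (I : Ideal A) : Ideal A where
  carrier := {x | ∃ s, s ∉ 𝔪 ∧ s * x ∈ I}
  add_mem' := by
    rintro x y ⟨s, hs, hsx⟩ ⟨t, ht, hty⟩
    refine ⟨s * t, fun h => (h𝔪.mem_or_mem h).elim hs ht, ?_⟩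
    have : s * t * (x + y) = t * (s * x) + s * (t * y) := by ring
    rw [this]
    exact I.add_mem (I.mul_mem_left _ hsx) (I.mul_mem_left _ hty)
  zero_mem' := ⟨1, fun h => h𝔪.ne_top ((Ideal.eq_top_iff_one _).2 h), by simp⟩
  smul_mem' := by
    rintro a x ⟨s, hs, hsx⟩
    refine ⟨s, hs, ?_⟩
    have : s * (a • x) = a * (s * x) := by simp only [smul_eq_mul]; ring
    rw [this]
    exact I.mul_mem_left _ hsx

theorem mem_satI {𝔪 : Ideal A} [h𝔪 : 𝔪.IsPrime] {I : Ideal A} {x : A} :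
    x ∈ satI 𝔪 I ↔ ∃ s, s ∉ 𝔪 ∧ s * x ∈ I := Iff.rfl

theorem le_satI (𝔪 : Ideal A) [h𝔪 : 𝔪.IsPrime] (I : Ideal A) {x : A} (hx : x ∈ I) :
    x ∈ satI 𝔪 I :=
  ⟨1, fun h => h𝔪.ne_top ((Ideal.eq_top_iff_one _).2 h), by simpa using hx⟩

theorem satI_of_mul {𝔪 : Ideal A} [h𝔪 : 𝔪.IsPrime] {I : Ideal A} {t x : A} (ht : t ∉ 𝔪)
    (h : t * x ∈ satI 𝔪 I) : x ∈ satI 𝔪 I := by
  obtain ⟨s, hs, hsx⟩ := h
  exact ⟨s * t, fun h => (h𝔪.mem_or_mem h).elim hs ht, by rwa [mul_assoc]⟩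

end sat

theorem fin5_cases : ∀ i j : Fin 5,
    j = i ∨ j = i + 1 ∨ j = i + 2 ∨ j = i + 3 ∨ j = i + 4 := by decide
theorem fin5_add₁ : ∀ j : Fin 5, j + 3 + 1 = j + 4 := by decide
theorem fin5_add₂ : ∀ j : Fin 5, j + 3 + 3 = j + 1 := by decide
theorem fin5_add₃ : ∀ j : Fin 5, j + 2 + 1 = j + 3 := by decide
theorem fin5_add₄ : ∀ j : Fin 5, j + 2 + 3 = j := by decide
theorem fin5_add₅ : ∀ j : Fin 5, j + 4 + 1 = j := by decide
theorem fin5_add₆ : ∀ j : Fin 5, j + 4 + 3 = j + 2 := by decide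

/-- the zero pattern of a point -/
theorem exists_zero_pattern {k : Type} [Field k] (c : Fin 5 → k)
    (hc : ∀ j, c j ^ 7 * c (j + 1) ^ 7 = 1 + c (j + 3) ^ 7) :
    ∃ j : Fin 5, c (j + 2) ≠ 0 ∧ c (j + 3) ≠ 0 ∧ c (j + 4) ≠ 0 := by
  have h3 : ∀ i, c i = 0 → c (i + 3) ≠ 0 := by
    intro i hi h
    have := hc i
    rw [hi, h] at this
    norm_num at this
  have h2 : ∀ i, c i = 0 → c (i + 2) ≠ 0 := by
    intro i hi h
    have := hc (i + 4)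
    rw [fin5_add₅, fin5_add₆, hi, h] at this
    norm_num at this
  have e : ∀ i, c i = 0 → c (i + 2) ≠ 0 ∧ c (i + 3) ≠ 0 := fun i hi => ⟨h2 i hi, h3 i hi⟩
  have e0 := e 0
  have e1 := e 1
  have e2 := e 2
  have e3 := e 3
  have e4 := e 4
  simp only [show (0 : Fin 5) + 2 = 2 from rfl, show (0 : Fin 5) + 3 = 3 from rfl,
    show (1 : Fin 5) + 2 = 3 from rfl, show (1 : Fin 5) + 3 = 4 from rfl,
    show (2 : Fin 5) + 2 = 4 from rfl, show (2 : Fin 5) + 3 = 0 from rfl,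
    show (3 : Fin 5) + 2 = 0 from rfl, show (3 : Fin 5) + 3 = 1 from rfl,
    show (4 : Fin 5) + 2 = 1 from rfl, show (4 : Fin 5) + 3 = 2 from rfl] at e0 e1 e2 e3 e4
  by_cases h0 : c 0 = 0
  · by_cases h1 : c 1 = 0
    · exact ⟨0, (e0 h0).1, (e0 h0).2, (e1 h1).2⟩
    · -- zero set ⊆ {0, 4}
      refine ⟨4, ?_, ?_, ?_⟩
      · exact h1
      · exact (e0 h0).1
      · exact (e0 h0).2
  · by_cases h1 : c 1 = 0
    · -- zero set ⊆ {1, 2}
      exact ⟨1, (e1 h1).1, (e1 h1).2, h0⟩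
    · by_cases h2' : c 2 = 0
      · exact ⟨2, (e2 h2').1, h0, h1⟩
      · exact ⟨3, h0, h1, h2'⟩

variable {k A : Type} [Field k] [CommRing A] [Algebra k A]

theorem const_mem {𝔪 : Ideal A} [h𝔪 : 𝔪.IsPrime] {c : k} (h : algebraMap k A c ∈ 𝔪) : c = 0 := by
  by_contra hc
  apply h𝔪.ne_top
  rw [Ideal.eq_top_iff_one]
  have := 𝔪.mul_mem_left (algebraMap k A c⁻¹) h
  rwa [← map_mul, inv_mul_cancel₀ hc, map_one] at this

theorem cofactor_not_mem {𝔪 : Ideal A} [h𝔪 : 𝔪.IsPrime] (h7 : (7 : k) ≠ 0) {z : A} {c : k}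
    (hc : c ≠ 0) (hz : z - algebraMap k A c ∈ 𝔪) :
    z ^ 6 + z ^ 5 * algebraMap k A c + z ^ 4 * algebraMap k A c ^ 2 +
      z ^ 3 * algebraMap k A c ^ 3 + z ^ 2 * algebraMap k A c ^ 4 + z * algebraMap k A c ^ 5 +
      algebraMap k A c ^ 6 ∉ 𝔪 := by
  intro h
  set C := algebraMap k A c with hC
  have h2 : (z - C) * (z ^ 5 + 2 * z ^ 4 * C + 3 * z ^ 3 * C ^ 2 + 4 * z ^ 2 * C ^ 3 +
      5 * z * C ^ 4 + 6 * C ^ 5) ∈ 𝔪 := 𝔪.mul_mem_right _ hz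
  have h3 := 𝔪.sub_mem h h2
  have h4 : algebraMap k A (7 * c ^ 6) ∈ 𝔪 := by
    have e : algebraMap k A (7 * c ^ 6) = (z ^ 6 + z ^ 5 * C + z ^ 4 * C ^ 2 +
      z ^ 3 * C ^ 3 + z ^ 2 * C ^ 4 + z * C ^ 5 + C ^ 6) - (z - C) * (z ^ 5 + 2 * z ^ 4 * C +
      3 * z ^ 3 * C ^ 2 + 4 * z ^ 2 * C ^ 3 + 5 * z * C ^ 4 + 6 * C ^ 5) := by
      rw [map_mul, map_pow, ← hC, map_ofNat]
      ring
    rw [e]; exact h3
  have h5 := const_mem h4
  rcases mul_eq_zero.1 h5 with h6 | h6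
  · exact h7 h6
  · exact hc (pow_eq_zero_iff (by norm_num) |>.1 h6)

theorem seven_factor (z C : A) : z ^ 7 - C ^ 7 = (z ^ 6 + z ^ 5 * C + z ^ 4 * C ^ 2 +
      z ^ 3 * C ^ 3 + z ^ 2 * C ^ 4 + z * C ^ 5 + C ^ 6) * (z - C) := by ring

/-- from `z^7 - c^7` back to `z - c` at a nonzero `c` -/
theorem sat_root {𝔪 : Ideal A} [h𝔪 : 𝔪.IsPrime] (h7 : (7 : k) ≠ 0) {J : Ideal A} {z : A} {c : k}
    (hc : c ≠ 0) (hz : z - algebraMap k A c ∈ 𝔪)
    (h : z ^ 7 - algebraMap k A c ^ 7 ∈ satI 𝔪 J) : z - algebraMap k A c ∈ satI 𝔪 J := by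
  rw [seven_factor] at h
  exact satI_of_mul (cofactor_not_mem h7 hc hz) h

theorem pow_sub_mem {J : Ideal A} {z C : A} (h : z - C ∈ J) : z ^ 7 - C ^ 7 ∈ J := by
  rw [seven_factor]
  exact J.mul_mem_left _ h

theorem rel_const {𝔪 : Ideal A} [h𝔪 : 𝔪.IsPrime] (z : Fin 5 → A) (c : Fin 5 → k)
    (hz : ∀ j, z j ^ 7 * z (j + 1) ^ 7 = 1 + z (j + 3) ^ 7)
    (hm : ∀ j, z j - algebraMap k A (c j) ∈ 𝔪) :
    ∀ j, c j ^ 7 * c (j + 1) ^ 7 = 1 + c (j + 3) ^ 7 := by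
  intro j
  have h1 := pow_sub_mem (hm j)
  have h2 := pow_sub_mem (hm (j + 1))
  have h3 := pow_sub_mem (hm (j + 3))
  have h4 : algebraMap k A (c j ^ 7 * c (j + 1) ^ 7 - (1 + c (j + 3) ^ 7)) ∈ 𝔪 := by
    have e : algebraMap k A (c j ^ 7 * c (j + 1) ^ 7 - (1 + c (j + 3) ^ 7)) =
        (z (j + 3) ^ 7 - algebraMap k A (c (j + 3)) ^ 7)
        - z (j + 1) ^ 7 * (z j ^ 7 - algebraMap k A (c j) ^ 7)
        - algebraMap k A (c j) ^ 7 * (z (j + 1) ^ 7 - algebraMap k A (c (j + 1)) ^ 7) := by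
      simp only [map_sub, map_add, map_mul, map_pow, map_one]
      linear_combination hz j
    rw [e]
    exact 𝔪.sub_mem (𝔪.sub_mem h3 (𝔪.mul_mem_left _ h1)) (𝔪.mul_mem_left _ h2)
  have h5 := const_mem h4
  linear_combination h5

/-- local generation by two of the `z_i - c_i` -/
theorem local_gen (𝔪 : Ideal A) [h𝔪 : 𝔪.IsPrime] (h7 : (7 : k) ≠ 0) (z : Fin 5 → A)
    (c : Fin 5 → k) (hz : ∀ j, z j ^ 7 * z (j + 1) ^ 7 = 1 + z (j + 3) ^ 7)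
    (hm : ∀ j, z j - algebraMap k A (c j) ∈ 𝔪) :
    ∃ i : Fin 5, ∃ s, s ∉ 𝔪 ∧ ∀ j, s * (z j - algebraMap k A (c j)) ∈
      Ideal.span {z i - algebraMap k A (c i), z (i + 1) - algebraMap k A (c (i + 1))} := by
  have hc := rel_const z c hz hm
  obtain ⟨i, hi2, hi3, hi4⟩ := exists_zero_pattern c hc
  refine ⟨i, ?_⟩
  set I := Ideal.span {z i - algebraMap k A (c i), z (i + 1) - algebraMap k A (c (i + 1))} with hI
  -- `z (i+3)` and its relatives are units at `𝔪`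
  have hz3 : z (i + 3) ^ 7 ∉ 𝔪 := by
    intro h
    have h1 := h𝔪.mem_of_pow_mem _ h
    have h2 := 𝔪.sub_mem h1 (hm (i + 3))
    rw [sub_sub_cancel] at h2
    exact hi3 (const_mem h2)
  have m0 : z i - algebraMap k A (c i) ∈ satI 𝔪 I :=
    le_satI _ _ (Ideal.subset_span (by simp))
  have m1 : z (i + 1) - algebraMap k A (c (i + 1)) ∈ satI 𝔪 I :=
    le_satI _ _ (Ideal.subset_span (by simp))
  have M0 := pow_sub_mem m0
  have M1 := pow_sub_mem m1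
  have hcA : ∀ j, algebraMap k A (c j) ^ 7 * algebraMap k A (c (j + 1)) ^ 7 =
      1 + algebraMap k A (c (j + 3)) ^ 7 := by
    intro j
    have := congrArg (algebraMap k A) (hc j)
    simpa only [map_mul, map_pow, map_add, map_one] using this
  have M3 : z (i + 3) ^ 7 - algebraMap k A (c (i + 3)) ^ 7 ∈ satI 𝔪 I := by
    have e : z (i + 3) ^ 7 - algebraMap k A (c (i + 3)) ^ 7 =
        z (i + 1) ^ 7 * (z i ^ 7 - algebraMap k A (c i) ^ 7)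
        + algebraMap k A (c i) ^ 7 * (z (i + 1) ^ 7 - algebraMap k A (c (i + 1)) ^ 7) := by
      linear_combination -(hz i) + hcA i
    rw [e]
    exact Ideal.add_mem _ (Ideal.mul_mem_left _ _ M0) (Ideal.mul_mem_left _ _ M1)
  have m3 := sat_root h7 hi3 (hm (i + 3)) M3
  have M4 : z (i + 4) ^ 7 - algebraMap k A (c (i + 4)) ^ 7 ∈ satI 𝔪 I := by
    refine satI_of_mul hz3 ?_
    have r := hz (i + 3)
    have rc := hcA (i + 3)
    rw [fin5_add₁, fin5_add₂] at r rc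
    have e : z (i + 3) ^ 7 * (z (i + 4) ^ 7 - algebraMap k A (c (i + 4)) ^ 7) =
        (z (i + 1) ^ 7 - algebraMap k A (c (i + 1)) ^ 7)
        - algebraMap k A (c (i + 4)) ^ 7 * (z (i + 3) ^ 7 - algebraMap k A (c (i + 3)) ^ 7) := by
      linear_combination r - rc
    rw [e]
    exact Ideal.sub_mem _ M1 (Ideal.mul_mem_left _ _ M3)
  have m4 := sat_root h7 hi4 (hm (i + 4)) M4
  have M2 : z (i + 2) ^ 7 - algebraMap k A (c (i + 2)) ^ 7 ∈ satI 𝔪 I := by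
    refine satI_of_mul hz3 ?_
    have r := hz (i + 2)
    have rc := hcA (i + 2)
    rw [fin5_add₃, fin5_add₄] at r rc
    have e : z (i + 3) ^ 7 * (z (i + 2) ^ 7 - algebraMap k A (c (i + 2)) ^ 7) =
        (z i ^ 7 - algebraMap k A (c i) ^ 7)
        - algebraMap k A (c (i + 2)) ^ 7 * (z (i + 3) ^ 7 - algebraMap k A (c (i + 3)) ^ 7) := by
      linear_combination r - rc
    rw [e]
    exact Ideal.sub_mem _ M0 (Ideal.mul_mem_left _ _ M3)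
  have m2 := sat_root h7 hi2 (hm (i + 2)) M2
  have hall : ∀ j : Fin 5, z j - algebraMap k A (c j) ∈ satI 𝔪 I := by
    intro j
    rcases fin5_cases i j with rfl | rfl | rfl | rfl | rfl
    exacts [m0, m1, m2, m3, m4]
  choose s hs hsj using hall
  refine ⟨∏ j, s j, ?_, ?_⟩
  · intro h
    obtain ⟨j, -, hj⟩ := (Ideal.IsPrime.prod_mem_iff).1 h
    exact hs j hj
  · intro j
    rw [← Finset.prod_erase_mul Finset.univ s (Finset.mem_univ j), mul_assoc]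
    exact Ideal.mul_mem_left _ _ (hsj j)

end Pt

end Crest.Agent.R169
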