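import Crest.Agent.R169.Pt.Basic
import Crest.Agent.R169.Pt.Local
import Crest.Agent.R169.RingDefs

/-!
# Row 169, F5: the affine chart `X ≠ 0` (helper785)
-/

set_option autoImplicit false

namespace Crest.Agent.R169

namespace Pt

variable {k Q : Type} [Field k] [Field Q] [Algebra k Q]

/-- What is used of `T_7`. -/
structure Is7 (D : TData k Q) (z : Fin 5 → Q) : Prop where
  rel : ∀ j, z j ^ 7 * z (j + 1) ^ 7 = 1 + z (j + 3) ^ 7
  F_eq : ∀ m, D.F m = Submodule.span k
    {q | ∃ b : Fin 5 → ℕ, (∀ i, Crest.R169.w i b ≤ m) ∧ q = ∏ i, z i ^ b i}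
  hu : D.u = z 0 + z 3 + z 4
  hv : D.v = z 1 + z 2 + z 3

variable {D : TData k Q} {P : ℤ → Submodule k Q} {z : Fin 5 → Q}

theorem Is7.z_mem (h : Is7 D z) (j : Fin 5) : z j ∈ D.F 1 := by
  rw [h.F_eq]
  refine Submodule.subset_span ⟨Pi.single j 1, ?_, ?_⟩
  · intro i
    revert i j
    decide
  · rw [Finset.prod_eq_single j]
    · simp
    · intro b _ hb
      simp [Pi.single_eq_of_ne hb]
    · simp

theorem IsPt.one_notMem (hP : IsPt D P) (h1 : (1 : Q) ∉ P 1) (m : ℤ) (hm : 0 ≤ m) :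
    (1 : Q) ∉ P m := by
  intro h
  apply h1
  have h2 : (1 : Q) ∈ P (m + 1) := IsGId.mono hP.toIsGId (by omega) h
  have h3 := IsPt.of_pow hP (i := 1) (one_memF D (by norm_num)) ((m + 1).toNat) (by omega)
  apply h3
  rw [one_pow]
  have e : (((m + 1).toNat : ℕ) : ℤ) * 1 = m + 1 := by
    rw [mul_one]; exact Int.toNat_of_nonneg (by omega)
  rwa [e]

/-- membership in `P` does not depend on the degree (chart `X ≠ 0`) -/
theorem IsPt.mem_of_mem (hP : IsPt D P) (h1 : (1 : Q) ∉ P 1) {m n : ℤ} {f : Q}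
    (hf : f ∈ D.F m) (h : f ∈ P n) : f ∈ P m := by
  rcases le_total n m with hnm | hnm
  · exact IsGId.mono hP.toIsGId hnm h
  · have h2 : (1 : Q) * f ∈ P ((n - m) + m) := by
      rw [one_mul]
      have e : n - m + m = n := by ring
      rwa [e]
    rcases hP.prime _ _ _ (one_memF D (by omega)) _ hf h2 with h3 | h3
    · exact absurd h3 (IsPt.one_notMem hP h1 _ (by omega))
    · exact h3

/-- every function has a value at the point -/
theorem IsPt.exists_value (hP : IsPt D P) (h1 : (1 : Q) ∉ P 1) {m : ℤ} {f : Q} (hm : 0 ≤ m)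
    (hf : f ∈ D.F m) : ∃ c : k, f - algebraMap k Q c ∈ P m := by
  obtain ⟨m₀, hm₀⟩ := hP.hilb
  obtain ⟨t, htF, htP, ht⟩ := hm₀ (max m₀ m) (le_max_left _ _)
  have hM : 0 ≤ max m₀ m := le_trans hm (le_max_right _ _)
  obtain ⟨c, hc⟩ := ht f (F_mono D (le_max_right _ _) hf)
  obtain ⟨c', hc'⟩ := ht 1 (one_memF D hM)
  have hc'0 : c' ≠ 0 := by
    rintro rfl
    rw [zero_smul, sub_zero] at hc'
    exact IsPt.one_notMem hP h1 _ hM hc'
  refine ⟨c * c'⁻¹, ?_⟩
  refine IsPt.mem_of_mem hP h1 (Submodule.sub_mem _ hf (smul_one_memF D hm _)) (n := max m₀ m) ?_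
  have e : f - algebraMap k Q (c * c'⁻¹) = (f - c • t) - (c * c'⁻¹) • ((1 : Q) - c' • t) := by
    rw [smul_sub, smul_smul, mul_assoc, inv_mul_cancel₀ hc'0, mul_one,
      Algebra.algebraMap_eq_smul_one]
    ring
  rw [e]
  exact Submodule.sub_mem _ hc (Submodule.smul_mem _ _ hc')

/-- the coordinate ring of the chart -/
def chartA (D : TData k Q) : Subalgebra k Q where
  carrier := {f | ∃ m : ℕ, f ∈ D.F m}
  mul_mem' := by
    rintro f g ⟨m, hf⟩ ⟨n, hg⟩
    exact ⟨m + n, by simpa using D.mul_mem _ _ _ hf _ hg⟩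
  add_mem' := by
    rintro f g ⟨m, hf⟩ ⟨n, hg⟩
    exact ⟨m + n, Submodule.add_mem _ (F_mono D (by simp) hf) (F_mono D (by simp) hg)⟩
  algebraMap_mem' := fun r => ⟨0, smul_one_memF D (by simp) r⟩

/-- the maximal ideal of the chart -/
def chartM (hP : IsPt D P) : Ideal (chartA D) where
  carrier := {f | ∃ m : ℕ, (f : Q) ∈ P m}
  add_mem' := by
    rintro f g ⟨m, hf⟩ ⟨n, hg⟩
    exact ⟨m + n, Submodule.add_mem _ (IsGId.mono hP.toIsGId (by simp) hf)
      (IsGId.mono hP.toIsGId (by simp) hg)⟩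
  zero_mem' := ⟨0, by simp⟩
  smul_mem' := by
    rintro ⟨f, m, hf⟩ ⟨g, hg'⟩ ⟨n, hg⟩
    exact ⟨m + n, by simpa using hP.mul _ _ _ hf _ hg⟩

theorem chartM_isPrime (hP : IsPt D P) (h1 : (1 : Q) ∉ P 1) : (chartM hP).IsPrime where
  ne_top' := by
    rw [Ne, Ideal.eq_top_iff_one]
    rintro ⟨m, hm⟩
    exact IsPt.one_notMem hP h1 m (by simp) hm
  mem_or_mem' := by
    rintro ⟨f, m, hf⟩ ⟨g, n, hg⟩ ⟨l, hl⟩
    have hl' : f * g ∈ P l := hl
    have h2 : f * g ∈ P ((m : ℤ) + n) :=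
      IsPt.mem_of_mem hP h1 (D.mul_mem _ _ _ hf _ hg) hl'
    rcases hP.prime _ _ _ hf _ hg h2 with h3 | h3
    · exact Or.inl ⟨m, h3⟩
    · exact Or.inr ⟨n, h3⟩

/-- upper bound for degrees, uniform on a finite dimensional space -/
theorem exists_uniform (W : Submodule k Q) (hW : Module.Finite k W) (a b s : Q)
    (h : ∀ f ∈ W, ∃ m : ℕ, ∃ x ∈ D.F m, ∃ y ∈ D.F m, s * f = a * x + b * y) :
    ∃ L : ℕ, ∀ f ∈ W, ∃ x ∈ D.F L, ∃ y ∈ D.F L, s * f = a * x + b * y := by
  have hfg : W.FG := Module.Finite.iff_fg.1 hW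
  obtain ⟨S, hS⟩ := hfg
  have h2 : ∀ f ∈ S, ∃ m : ℕ, ∃ x ∈ D.F m, ∃ y ∈ D.F m, s * f = a * x + b * y := by
    intro f hf
    exact h f (by rw [← hS]; exact Submodule.subset_span hf)
  choose! m x hx y hy e using h2
  refine ⟨S.sup m, fun f hf => ?_⟩
  rw [← hS] at hf
  induction hf using Submodule.span_induction with
  | mem f hf =>
    have hle : (m f : ℤ) ≤ (S.sup m : ℕ) := by exact_mod_cast Finset.le_sup (f := m) hf
    exact ⟨x f, F_mono D hle (hx f hf), y f, F_mono D hle (hy f hf), e f hf⟩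
  | zero => exact ⟨0, Submodule.zero_mem _, 0, Submodule.zero_mem _, by ring⟩
  | add f g _ _ hf hg =>
    obtain ⟨x1, hx1, y1, hy1, e1⟩ := hf
    obtain ⟨x2, hx2, y2, hy2, e2⟩ := hg
    refine ⟨x1 + x2, Submodule.add_mem _ hx1 hx2, y1 + y2, Submodule.add_mem _ hy1 hy2, ?_⟩
    linear_combination e1 + e2
  | smul c f _ hf =>
    obtain ⟨x1, hx1, y1, hy1, e1⟩ := hf
    refine ⟨c • x1, Submodule.smul_mem _ _ hx1, c • y1, Submodule.smul_mem _ _ hy1, ?_⟩
    simp only [Algebra.smul_def] at *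
    linear_combination (algebraMap k Q c) * e1

/-- in the chart, `P (m+1)` is generated by `P m` for large `m` -/
theorem IsPt.exists_gen (hP : IsPt D P) (h1 : (1 : Q) ∉ P 1) :
    ∃ M : ℕ, ∀ m : ℤ, (M : ℤ) ≤ m → ∀ f ∈ P (m + 1), ∃ x ∈ P m, ∃ y ∈ P m, ∃ w ∈ P m,
      f = x + D.u * y + D.v * w := by
  obtain ⟨m₁, hm₁⟩ := D.lat.gen
  refine ⟨(max m₁ 1).toNat, fun m hm f hf => ?_⟩
  have hm' : max m₁ 1 ≤ m := le_trans (Int.self_le_toNat _) hm
  have hm1 : m₁ ≤ m := le_trans (le_max_left _ _) hm'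
  have hm2 : 1 ≤ m := le_trans (le_max_right _ _) hm'
  obtain ⟨a, ha, b, hb, c, hc, e⟩ := hm₁ m hm1 f (hP.le _ hf)
  obtain ⟨α, hα⟩ := IsPt.exists_value hP h1 (by omega) ha
  obtain ⟨β, hβ⟩ := IsPt.exists_value hP h1 (by omega) hb
  obtain ⟨γ, hγ⟩ := IsPt.exists_value hP h1 (by omega) hc
  -- the remainder
  have hr1 : algebraMap k Q α + D.u * algebraMap k Q β + D.v * algebraMap k Q γ ∈ D.F 1 := by
    refine Submodule.add_mem _ (Submodule.add_mem _ (smul_one_memF D (by norm_num) _) ?_) ?_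
    · have := D.mul_mem 1 0 _ D.u_mem _ (smul_one_memF D le_rfl β)
      simpa using this
    · have := D.mul_mem 1 0 _ D.v_mem _ (smul_one_memF D le_rfl γ)
      simpa using this
  have hub : D.u * (b - algebraMap k Q β) ∈ P (m + 1) := by
    have := hP.mul 1 m _ D.u_mem _ hβ
    rwa [add_comm] at this
  have hvc : D.v * (c - algebraMap k Q γ) ∈ P (m + 1) := by
    have := hP.mul 1 m _ D.v_mem _ hγ
    rwa [add_comm] at this
  have ha' : a - algebraMap k Q α ∈ P (m + 1) := IsGId.mono hP.toIsGId (by omega) hα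
  have hr2 : algebraMap k Q α + D.u * algebraMap k Q β + D.v * algebraMap k Q γ ∈ P (m + 1) := by
    have e2 : algebraMap k Q α + D.u * algebraMap k Q β + D.v * algebraMap k Q γ =
        f - (a - algebraMap k Q α) - D.u * (b - algebraMap k Q β)
          - D.v * (c - algebraMap k Q γ) := by
      rw [e]; simp only [smul_eq_mul]; ring
    rw [e2]
    exact Submodule.sub_mem _ (Submodule.sub_mem _ (Submodule.sub_mem _ hf ha') hub) hvc
  have hr3 : algebraMap k Q α + D.u * algebraMap k Q β + D.v * algebraMap k Q γ ∈ P m :=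
    IsGId.mono hP.toIsGId hm2 (IsPt.mem_of_mem hP h1 hr1 hr2)
  refine ⟨a - algebraMap k Q α + (algebraMap k Q α + D.u * algebraMap k Q β +
    D.v * algebraMap k Q γ), Submodule.add_mem _ hα hr3, b - algebraMap k Q β, hβ,
    c - algebraMap k Q γ, hγ, ?_⟩
  rw [e]; simp only [smul_eq_mul]; ring

/-- **the chart `X ≠ 0` is regular** -/
theorem Is7.ptRegular_chart (hz : Is7 D z) (h7 : (7 : k) ≠ 0) (hP : IsPt D P)
    (h1 : (1 : Q) ∉ P 1) : PtRegular D P := by
  have hprime := chartM_isPrime hP h1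
  -- coordinates in the chart ring
  have hzA : ∀ j, z j ∈ chartA D := fun j => ⟨1, by simpa using hz.z_mem j⟩
  let zA : Fin 5 → chartA D := fun j => ⟨z j, hzA j⟩
  have hv : ∀ j, ∃ c : k, z j - algebraMap k Q c ∈ P 1 := fun j =>
    IsPt.exists_value hP h1 (by norm_num) (hz.z_mem j)
  choose c hc using hv
  have hmem : ∀ j, zA j - algebraMap k (chartA D) (c j) ∈ chartM hP := fun j =>
    ⟨1, by simpa using hc j⟩
  have hrel : ∀ j, zA j ^ 7 * zA (j + 1) ^ 7 = 1 + zA (j + 3) ^ 7 := by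
    intro j
    apply Subtype.ext
    simpa [zA] using hz.rel j
  obtain ⟨i, s, hs, hsj⟩ := local_gen (chartM hP) h7 zA c hrel hmem
  -- `chartM` is generated by the `z_j - c_j`
  set I0 : Ideal (chartA D) := Ideal.span (Set.range fun j => zA j - algebraMap k (chartA D) (c j))
    with hI0
  have hI0le : I0 ≤ chartM hP := by
    rw [hI0, Ideal.span_le]
    rintro _ ⟨j, rfl⟩
    exact hmem j
  have hval : ∀ (m : ℕ) (f : Q) (hf : f ∈ D.F m), ∃ α : k,
      (⟨f, m, hf⟩ : chartA D) - algebraMap k (chartA D) α ∈ I0 := by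
    intro m f hf
    have key : ∀ f ∈ Submodule.span k {q | ∃ b : Fin 5 → ℕ, (∀ i, Crest.R169.w i b ≤ m) ∧
        q = ∏ i, z i ^ b i}, ∃ hf : f ∈ chartA D, ∃ α : k,
        (⟨f, hf⟩ : chartA D) - algebraMap k (chartA D) α ∈ I0 := by
      intro f hf
      induction hf using Submodule.span_induction with
      | mem f hf =>
        obtain ⟨b, -, rfl⟩ := hf
        have hmem' : ∏ i, z i ^ b i ∈ chartA D :=
          Subalgebra.prod_mem _ fun i _ => Subalgebra.pow_mem _ (hzA i) _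
        refine ⟨hmem', ∏ i, c i ^ b i, ?_⟩
        have e : (⟨∏ i, z i ^ b i, hmem'⟩ : chartA D) = ∏ i, zA i ^ b i := by
          apply Subtype.ext
          push_cast
          rfl
        rw [e, ← Ideal.Quotient.eq, map_prod, map_prod, map_prod]
        refine Finset.prod_congr rfl fun j _ => ?_
        rw [map_pow, map_pow, map_pow]
        congr 1
        rw [Ideal.Quotient.eq]
        exact Ideal.subset_span ⟨j, rfl⟩
      | zero =>
        refine ⟨Subalgebra.zero_mem _, 0, ?_⟩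
        have e : (⟨0, Subalgebra.zero_mem _⟩ : chartA D) - algebraMap k (chartA D) 0 = 0 := by
          rw [map_zero, sub_zero]; rfl
        rw [e]; exact I0.zero_mem
      | add f g _ _ hf hg =>
        obtain ⟨hf', α, hα⟩ := hf
        obtain ⟨hg', β, hβ⟩ := hg
        refine ⟨Subalgebra.add_mem _ hf' hg', α + β, ?_⟩
        have e : (⟨f + g, Subalgebra.add_mem _ hf' hg'⟩ : chartA D) -
            algebraMap k (chartA D) (α + β) = ((⟨f, hf'⟩ : chartA D) -
            algebraMap k (chartA D) α) + ((⟨g, hg'⟩ : chartA D) - algebraMap k (chartA D) β) := by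
          apply Subtype.ext
          simp only [map_add, AddSubgroupClass.coe_sub, Subalgebra.coe_add,
            Subalgebra.coe_algebraMap]
          ring
        rw [e]
        exact I0.add_mem hα hβ
      | smul r f _ hf =>
        obtain ⟨hf', α, hα⟩ := hf
        refine ⟨Subalgebra.smul_mem _ hf' r, r * α, ?_⟩
        have e : (⟨r • f, Subalgebra.smul_mem _ hf' r⟩ : chartA D) -
            algebraMap k (chartA D) (r * α) = algebraMap k (chartA D) r * ((⟨f, hf'⟩ : chartA D) -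
            algebraMap k (chartA D) α) := by
          apply Subtype.ext
          simp only [map_mul, AddSubgroupClass.coe_sub, Subalgebra.coe_mul,
            Subalgebra.coe_algebraMap, Algebra.smul_def]
          ring
        rw [e]
        exact I0.mul_mem_left _ hα
    have hf' := hf
    rw [hz.F_eq] at hf'
    obtain ⟨_, α, hα⟩ := key f hf'
    exact ⟨α, hα⟩
  have hMle : chartM hP ≤ I0 := by
    rintro ⟨f, m, hf⟩ hfm
    obtain ⟨α, hα⟩ := hval m f hf
    have h2 := (chartM hP).sub_mem hfm (hI0le hα)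
    rw [sub_sub_cancel] at h2
    have h3 : α = 0 := const_mem h2
    rw [h3, map_zero, sub_zero] at hα
    exact hα
  have hsI : ∀ x ∈ chartM hP, s * x ∈ Ideal.span {zA i - algebraMap k (chartA D) (c i),
      zA (i + 1) - algebraMap k (chartA D) (c (i + 1))} := by
    intro x hx
    have hx' := hMle hx
    clear hx
    rw [hI0] at hx'
    induction hx' using Submodule.span_induction with
    | mem x hx => obtain ⟨j, rfl⟩ := hx; exact hsj j
    | zero => simp
    | add x y _ _ hx2 hy2 =>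
      rw [mul_add]
      exact Ideal.add_mem _ hx2 hy2
    | smul a x _ hx2 =>
      rw [smul_eq_mul, mul_left_comm]
      exact Ideal.mul_mem_left _ _ hx2
  -- uniform degrees
  obtain ⟨M, hM⟩ := IsPt.exists_gen hP h1
  obtain ⟨⟨s, ms, hsF⟩, hs⟩ : ∃ s' : chartA D, s' = s := ⟨s, rfl⟩
  subst hs
  have hW : Module.Finite k (P (M : ℤ)) :=
    haveI := D.lat.fin M
    Submodule.finiteDimensional_of_le (hP.le M)
  obtain ⟨L, hL⟩ := exists_uniform (D := D) (P (M : ℤ)) hW (z i - algebraMap k Q (c i))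
    (z (i + 1) - algebraMap k Q (c (i + 1))) s (by
      intro f hf
      have hfm : (⟨f, M, hP.le _ hf⟩ : chartA D) ∈ chartM hP := ⟨M, hf⟩
      have h2 := hsI _ hfm
      rw [Ideal.mem_span_pair] at h2
      obtain ⟨⟨x, mx, hx⟩, ⟨y, my, hy⟩, e⟩ := h2
      refine ⟨mx + my, x, F_mono D (by simp) hx, y, F_mono D (by simp) hy, ?_⟩
      have e' := congrArg (fun t : chartA D => (t : Q)) e
      simp only [Subalgebra.coe_add, Subalgebra.coe_mul, AddSubgroupClass.coe_sub,
        Subalgebra.coe_algebraMap, zA] at e'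
      linear_combination -e')
  -- propagate to all degrees
  have hprop : ∀ n : ℕ, ∀ f ∈ P ((M : ℤ) + n), ∃ x ∈ D.F ((L : ℤ) + n), ∃ y ∈ D.F ((L : ℤ) + n),
      s * f = (z i - algebraMap k Q (c i)) * x + (z (i + 1) - algebraMap k Q (c (i + 1))) * y := by
    intro n
    induction n with
    | zero => intro f hf; simpa using hL f (by simpa using hf)
    | succ n ih =>
      intro f hf
      have e1 : ((M : ℤ) + ((n + 1 : ℕ) : ℤ)) = ((M : ℤ) + n) + 1 := by push_cast; ring
      rw [e1] at hf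
      obtain ⟨f0, h0, f1, hf1, f2, hf2, e⟩ := hM _ (by omega) f hf
      obtain ⟨x0, hx0, y0, hy0, e0⟩ := ih f0 h0
      obtain ⟨x1, hx1, y1, hy1, e1'⟩ := ih f1 hf1
      obtain ⟨x2, hx2, y2, hy2, e2⟩ := ih f2 hf2
      have e3 : ((L : ℤ) + ((n + 1 : ℕ) : ℤ)) = 1 + ((L : ℤ) + n) := by push_cast; ring
      rw [e3]
      refine ⟨x0 + D.u * x1 + D.v * x2, ?_, y0 + D.u * y1 + D.v * y2, ?_, ?_⟩
      · exact Submodule.add_mem _ (Submodule.add_mem _ (F_mono D (by omega) hx0)
          (D.mul_mem _ _ _ D.u_mem _ hx1)) (D.mul_mem _ _ _ D.v_mem _ hx2)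
      · exact Submodule.add_mem _ (Submodule.add_mem _ (F_mono D (by omega) hy0)
          (D.mul_mem _ _ _ D.u_mem _ hy1)) (D.mul_mem _ _ _ D.v_mem _ hy2)
      · rw [e]
        linear_combination e0 + D.u * e1' + D.v * e2
  refine ⟨1, 1, (L : ℤ) + 1 + ms, z i - algebraMap k Q (c i),
    z (i + 1) - algebraMap k Q (c (i + 1)), s, hc i, hc (i + 1), F_mono D (by omega) hsF, ?_, ?_⟩
  · intro h
    have h2 : (⟨s, ms, hsF⟩ : chartA D) ∈ chartM hP := by
      refine ⟨L + 1 + ms, ?_⟩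
      push_cast
      exact h
    exact hs h2
  · intro m f hf
    rcases lt_or_ge m 0 with hm | hm
    · have : f = 0 := by
        have h3 := hP.le _ hf
        rw [D.F_neg m hm] at h3
        simpa using h3
      subst this
      exact ⟨0, Submodule.zero_mem _, 0, Submodule.zero_mem _, by ring⟩
    · rcases le_total m (M : ℤ) with hmM | hmM
      · obtain ⟨x, hx, y, hy, e⟩ := hL f (IsGId.mono hP.toIsGId hmM hf)
        exact ⟨x, F_mono D (by omega) hx, y, F_mono D (by omega) hy, e⟩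
      · obtain ⟨n, rfl⟩ := Int.le.dest hmM
        obtain ⟨x, hx, y, hy, e⟩ := hprop n f hf
        exact ⟨x, F_mono D (by omega) hx, y, F_mono D (by omega) hy, e⟩

end Pt

end Crest.Agent.R169
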