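import Crest.Agent.R169.Pt.Chart

/-!
# Row 169, F5: the six charts and the two symmetries (helper785)
-/

set_option autoImplicit false

namespace Crest.Agent.R169

namespace Pt

variable {k Q : Type} [Field k] [Field Q] [Algebra k Q]

variable {D : TData k Q} {P : ℤ → Submodule k Q} {z : Fin 5 → Q}

/-- the six charts `X ≠ 0`, `z_j z_{j+1} X ≠ 0` cover -/
theorem Is7.exists_chart (hz : Is7 D z) (hP : IsPt D P) :
    (1 : Q) ∉ P 1 ∨ ∃ j : Fin 5, z j * z (j + 1) ∉ P 1 := by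
  by_contra hcon
  push Not at hcon
  obtain ⟨h1, hj⟩ := hcon
  have hzj : ∀ j, z j ∈ P 1 := by
    intro j
    refine IsPt.of_pow hP (hz.z_mem j) 7 (by norm_num) ?_
    have r := hz.rel (j + 2)
    rw [fin5_add₃, fin5_add₄] at r
    have h2 := IsGId.pow hP.toIsGId (hj (j + 2)) 7 (by norm_num)
    rw [fin5_add₃] at h2
    have h3 := IsGId.pow hP.toIsGId h1 7 (by norm_num)
    have e : z j ^ 7 = (z (j + 2) * z (j + 3)) ^ 7 - 1 ^ 7 := by
      rw [mul_pow]; linear_combination -r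
    rw [e]
    exact Submodule.sub_mem _ h2 h3
  refine IsPt.not_all hP h1 ?_ ?_
  · rw [hz.hu]
    exact Submodule.add_mem _ (Submodule.add_mem _ (hzj _) (hzj _)) (hzj _)
  · rw [hz.hv]
    exact Submodule.add_mem _ (Submodule.add_mem _ (hzj _) (hzj _)) (hzj _)

/-- constructor for graded automorphisms: one inclusion is enough -/
def GrAut.mk' (φ : ℤ → (Q ≃ₗ[k] Q)) (map_mul : ∀ i j f g, φ (i + j) (f * g) = φ i f * φ j g)
    (h : ∀ m f, f ∈ D.F m → φ m f ∈ D.F m) : GrAut D where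
  φ := φ
  map_mul := map_mul
  memF m f := by
    refine ⟨fun hf => ?_, h m f⟩
    have := D.lat.fin m
    have hmap : (D.F m).map (φ m).toLinearMap = D.F m := by
      refine Submodule.eq_of_le_of_finrank_eq ?_ ?_
      · rintro _ ⟨g, hg, rfl⟩
        exact h m g hg
      · exact LinearEquiv.finrank_map_eq (φ m) (D.F m)
    rw [← hmap] at hf
    obtain ⟨g, hg, hgf⟩ := hf
    have : g = f := (φ m).injective hgf
    rwa [← this]

/-- the rotation as a graded automorphism -/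
def rotAut (hz : Is7 D z) (ρ : Q ≃ₐ[k] Q) (hρ : ∀ j, ρ (z j) = z (j + 1)) : GrAut D :=
  GrAut.mk' (D := D) (fun _ => ρ.toLinearEquiv) (fun i j f g => by simp) (by
    intro m f hf
    rw [hz.F_eq] at hf ⊢
    induction hf using Submodule.span_induction with
    | mem f hf =>
      obtain ⟨b, hb, rfl⟩ := hf
      refine Submodule.subset_span ⟨fun i => b (i + 4), ?_, ?_⟩
      · intro i
        have := hb (i + 4)
        simp only [Crest.R169.w] at this ⊢
        have e2 : i + 4 + 1 = i + 1 + 4 := by clear this; revert i; decide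
        rw [e2] at this
        exact this
      · show ρ (∏ i, z i ^ b i) = _
        rw [map_prod]
        simp only [map_pow, hρ]
        symm
        rw [← Equiv.prod_comp (Equiv.addRight (1 : Fin 5))]
        refine Finset.prod_congr rfl fun i _ => ?_
        simp only [Equiv.coe_addRight]
        have e3 : i + 1 + 4 = i := by revert i; decide
        rw [e3]
    | zero => rw [map_zero]; exact Submodule.zero_mem _
    | add f g _ _ hf hg => rw [map_add]; exact Submodule.add_mem _ hf hg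
    | smul c f _ hf => rw [map_smul]; exact Submodule.smul_mem _ _ hf)

/-- multiplication by a nonzero element as a linear equivalence -/
def mulEquiv (a : Q) (ha : a ≠ 0) : Q ≃ₗ[k] Q where
  toFun x := a * x
  invFun x := a⁻¹ * x
  map_add' := by intro x y; ring
  map_smul' := by intro c x; simp
  left_inv := by intro x; field_simp
  right_inv := by intro x; field_simp

@[simp] theorem mulEquiv_apply (a : Q) (ha : a ≠ 0) (x : Q) :
    mulEquiv (k := k) a ha x = a * x := rfl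

/-- the substitution `τ` on monomials -/
theorem tau_mono (z : Fin 5 → Q) (h2 : z 2 ≠ 0) (h3 : z 3 ≠ 0)
    (b : Fin 5 → ℕ) (M n2 n3 : ℕ) (e2 : n2 + b 0 + b 3 = M + b 4) (e3 : n3 + b 0 + b 2 = M + b 1) :
    (z 2 * z 3) ^ M * ((-z 0 / (z 2 * z 3)) ^ b 0 * (-(z 3 * z 4)) ^ b 1 * ((z 3)⁻¹) ^ b 2 *
      ((z 2)⁻¹) ^ b 3 * (-(z 1 * z 2)) ^ b 4) =
    (-1) ^ (b 0 + b 1 + b 4) * (z 0 ^ b 0 * z 1 ^ b 4 * z 2 ^ n2 * z 3 ^ n3 * z 4 ^ b 1) := by
  have E2 : z 2 ^ n2 * z 2 ^ b 0 * z 2 ^ b 3 = z 2 ^ M * z 2 ^ b 4 := by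
    rw [← pow_add, ← pow_add, ← pow_add, e2]
  have E3 : z 3 ^ n3 * z 3 ^ b 0 * z 3 ^ b 2 = z 3 ^ M * z 3 ^ b 1 := by
    rw [← pow_add, ← pow_add, ← pow_add, e3]
  have h2' : z 2 ^ b 0 * z 2 ^ b 3 ≠ 0 := mul_ne_zero (pow_ne_zero _ h2) (pow_ne_zero _ h2)
  have h3' : z 3 ^ b 0 * z 3 ^ b 2 ≠ 0 := mul_ne_zero (pow_ne_zero _ h3) (pow_ne_zero _ h3)
  have E2' : z 2 ^ n2 = z 2 ^ M * z 2 ^ b 4 / (z 2 ^ b 0 * z 2 ^ b 3) := by
    rw [eq_div_iff h2', ← E2]; ring
  have E3' : z 3 ^ n3 = z 3 ^ M * z 3 ^ b 1 / (z 3 ^ b 0 * z 3 ^ b 2) := by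
    rw [eq_div_iff h3', ← E3]; ring
  rw [E2', E3', div_pow, mul_pow, mul_pow, neg_pow (z 0), neg_pow (z 3 * z 4), neg_pow (z 1 * z 2),
    mul_pow (z 3) (z 4), mul_pow (z 1) (z 2), inv_pow, inv_pow]
  rw [pow_add (-1 : Q) (b 0 + b 1), pow_add (-1 : Q) (b 0)]
  field_simp

/-- the transposition as a graded automorphism -/
def tauAut (hz : Is7 D z) (h2 : z 2 ≠ 0) (h3 : z 3 ≠ 0) (τ : Q ≃ₐ[k] Q)
    (t0 : τ (z 0) = -z 0 / (z 2 * z 3)) (t1 : τ (z 1) = -(z 3 * z 4)) (t2 : τ (z 2) = (z 3)⁻¹)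
    (t3 : τ (z 3) = (z 2)⁻¹) (t4 : τ (z 4) = -(z 1 * z 2)) : GrAut D :=
  GrAut.mk' (D := D)
    (fun m => τ.toLinearEquiv.trans
      (mulEquiv ((z 2 * z 3) ^ m) (zpow_ne_zero _ (mul_ne_zero h2 h3))))
    (fun i j f g => by
      simp only [LinearEquiv.trans_apply, AlgEquiv.toLinearEquiv_apply, mulEquiv_apply, map_mul]
      rw [zpow_add₀ (mul_ne_zero h2 h3)]
      ring) (by
    intro m f hf
    rcases lt_or_ge m 0 with hm | hm
    · rw [D.F_neg m hm] at hf
      rw [(Submodule.mem_bot k).1 hf, map_zero]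
      exact Submodule.zero_mem _
    obtain ⟨M, rfl⟩ := Int.eq_ofNat_of_zero_le hm
    rw [hz.F_eq] at hf ⊢
    induction hf using Submodule.span_induction with
    | mem f hf =>
      obtain ⟨b, hb, rfl⟩ := hf
      have w0 := hb 0
      have w1 := hb 1
      have w2 := hb 2
      have w3 := hb 3
      have w4 := hb 4
      simp only [Crest.R169.w, show (0 : Fin 5) + 4 = 4 from rfl, show (1 : Fin 5) + 4 = 0 from rfl,
        show (2 : Fin 5) + 4 = 1 from rfl, show (3 : Fin 5) + 4 = 2 from rfl,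
        show (4 : Fin 5) + 4 = 3 from rfl, show (0 : Fin 5) + 1 = 1 from rfl,
        show (1 : Fin 5) + 1 = 2 from rfl, show (2 : Fin 5) + 1 = 3 from rfl,
        show (3 : Fin 5) + 1 = 4 from rfl, show (4 : Fin 5) + 1 = 0 from rfl] at w0 w1 w2 w3 w4
      obtain ⟨n2, hn2⟩ : ∃ n2 : ℕ, n2 + b 0 + b 3 = M + b 4 := ⟨M + b 4 - b 0 - b 3, by omega⟩
      obtain ⟨n3, hn3⟩ : ∃ n3 : ℕ, n3 + b 0 + b 2 = M + b 1 := ⟨M + b 1 - b 0 - b 2, by omega⟩
      have e : (τ.toLinearEquiv.trans (mulEquiv ((z 2 * z 3) ^ (M : ℤ))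
          (zpow_ne_zero _ (mul_ne_zero h2 h3)))) (∏ i, z i ^ b i) =
          ((-1 : k) ^ (b 0 + b 1 + b 4)) • ∏ i, z i ^ (![b 0, b 4, n2, n3, b 1] i) := by
        rw [LinearEquiv.trans_apply, AlgEquiv.toLinearEquiv_apply, mulEquiv_apply, zpow_natCast,
          Fin.prod_univ_five, Fin.prod_univ_five, map_mul, map_mul, map_mul, map_mul, map_pow,
          map_pow, map_pow, map_pow, map_pow, t0, t1, t2, t3, t4, tau_mono z h2 h3 b M n2 n3 hn2 hn3,
          Algebra.smul_def, map_pow, map_neg, map_one]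
        rfl
      rw [e]
      refine Submodule.smul_mem _ _ (Submodule.subset_span ⟨_, ?_, rfl⟩)
      intro i
      fin_cases i
      · show ((b 1 : ℕ) : ℤ) + (b 4 : ℕ) - (b 0 : ℕ) ≤ M
        omega
      · show ((b 0 : ℕ) : ℤ) + (n2 : ℕ) - (b 4 : ℕ) ≤ M
        omega
      · show ((b 4 : ℕ) : ℤ) + (n3 : ℕ) - (n2 : ℕ) ≤ M
        omega
      · show ((n2 : ℕ) : ℤ) + (b 1 : ℕ) - (n3 : ℕ) ≤ M
        omega
      · show ((n3 : ℕ) : ℤ) + (b 0 : ℕ) - (b 1 : ℕ) ≤ M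
        omega
    | zero => rw [map_zero]; exact Submodule.zero_mem _
    | add f g _ _ hf hg => rw [map_add]; exact Submodule.add_mem _ hf hg
    | smul c f _ hf => rw [map_smul]; exact Submodule.smul_mem _ _ hf)

/-- rotation indices -/
def ridx : ℕ → Fin 5
  | 0 => 2
  | n + 1 => ridx n + 1

theorem exists_ridx (j : Fin 5) : ∃ n, j = ridx n := by
  fin_cases j
  · exact ⟨3, rfl⟩
  · exact ⟨4, rfl⟩
  · exact ⟨0, rfl⟩
  · exact ⟨1, rfl⟩
  · exact ⟨2, rfl⟩

/-- **F5, abstract form** -/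
theorem Is7.allPtRegular (hz : Is7 D z) (h7 : (7 : k) ≠ 0) (h2 : z 2 ≠ 0) (h3 : z 3 ≠ 0)
    (ρ : Q ≃ₐ[k] Q) (hρ : ∀ j, ρ (z j) = z (j + 1)) (τ : Q ≃ₐ[k] Q)
    (t0 : τ (z 0) = -z 0 / (z 2 * z 3)) (t1 : τ (z 1) = -(z 3 * z 4)) (t2 : τ (z 2) = (z 3)⁻¹)
    (t3 : τ (z 3) = (z 2)⁻¹) (t4 : τ (z 4) = -(z 1 * z 2)) : AllPtRegular D := by
  -- chart `z_2 z_3 ≠ 0`
  have base : ∀ P, IsPt D P → z 2 * z 3 ∉ P 1 → PtRegular D P := by
    intro P hP h
    set a := tauAut hz h2 h3 τ t0 t1 t2 t3 t4 with ha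
    refine PtRegular.of_comap a (hz.ptRegular_chart h7 (IsPt.comap hP a) ?_)
    intro h1
    apply h
    have h1' : a.φ 1 1 ∈ P 1 := h1
    have e : a.φ 1 1 = z 2 * z 3 := by
      show (τ.toLinearEquiv.trans (mulEquiv ((z 2 * z 3) ^ (1 : ℤ))
          (zpow_ne_zero _ (mul_ne_zero h2 h3)))) 1 = _
      rw [LinearEquiv.trans_apply, AlgEquiv.toLinearEquiv_apply, mulEquiv_apply, map_one, zpow_one,
        mul_one]
    rwa [e] at h1'
  have rot : ∀ n : ℕ, ∀ P, IsPt D P → z (ridx n) * z (ridx n + 1) ∉ P 1 →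
      PtRegular D P := by
    intro n
    induction n with
    | zero => intro P hP h; exact base P hP h
    | succ n ih =>
      intro P hP h
      set a := rotAut hz ρ hρ with ha
      refine PtRegular.of_comap a (ih _ (IsPt.comap hP a) ?_)
      intro h1
      apply h
      have h1' : a.φ 1 (z (ridx n) * z (ridx n + 1)) ∈ P 1 := h1
      have e : a.φ 1 (z (ridx n) * z (ridx n + 1)) =
          z (ridx (n + 1)) * z (ridx (n + 1) + 1) := by
        show ρ (z (ridx n) * z (ridx n + 1)) = _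
        rw [map_mul, hρ, hρ]
        rfl
      rwa [e] at h1'
  intro P hP
  rcases hz.exists_chart hP with h1 | ⟨j, hj⟩
  · exact hz.ptRegular_chart h7 hP h1
  · obtain ⟨n, rfl⟩ := exists_ridx j
    exact rot n P hP hj

end Pt

end Crest.Agent.R169
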