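import Crest.Agent.R169.Pt.Cover

/-!
# Row 169, F5: the rotation and the transposition on `Frac O_7`, final form (helper785)
-/

set_option autoImplicit false

namespace Crest.Agent.R169

namespace Pt

open Crest.R169

variable (k : Type) [Field k]

/-- rotation on `O` -/
noncomputable def rotHom (n : ℕ) : ORing n k →ₐ[k] ORing n k :=
  ORing.lift (fun j => z n k (j + 1)) (by
    intro j
    have h := z_rel n k (j + 1)
    have e : j + 1 + 3 = j + 3 + 1 := by clear h; revert j; decide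
    rw [e] at h
    exact h)

/-- backward rotation on `O` -/
noncomputable def rotHom' (n : ℕ) : ORing n k →ₐ[k] ORing n k :=
  ORing.lift (fun j => z n k (j + 4)) (by
    intro j
    have h := z_rel n k (j + 4)
    have e : j + 4 + 3 = j + 3 + 4 := by clear h; revert j; decide
    have e2 : j + 4 + 1 = j + 1 + 4 := by clear h e; revert j; decide
    rw [e, e2] at h
    exact h)

noncomputable def rotEquiv (n : ℕ) : ORing n k ≃ₐ[k] ORing n k :=
  AlgEquiv.ofAlgHom (rotHom k n) (rotHom' k n)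
    (ORing.algHom_ext (by
      intro j
      simp only [rotHom, rotHom', AlgHom.comp_apply, ORing.lift_z, AlgHom.id_apply]
      congr 1
      revert j; decide))
    (ORing.algHom_ext (by
      intro j
      simp only [rotHom, rotHom', AlgHom.comp_apply, ORing.lift_z, AlgHom.id_apply]
      congr 1
      revert j; decide))

theorem rotEquiv_z (n : ℕ) (j : Fin 5) : rotEquiv k n (z n k j) = z n k (j + 1) := by
  show rotHom k n (z n k j) = _
  simp [rotHom]

/-- in an algebraically closed field there is a point with all coordinates nonzero -/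
theorem z_ne_zero [IsAlgClosed k] (n : ℕ) (hn : 0 < n) (j : Fin 5) : z n k j ≠ 0 := by
  obtain ⟨t, ht⟩ : ∃ t : k, t ^ 2 - t - 1 = 0 := by
    have hdeg : (Polynomial.X ^ 2 - Polynomial.X - 1 : Polynomial k).degree ≠ 0 := by
      have : (Polynomial.X ^ 2 - Polynomial.X - 1 : Polynomial k) =
          Polynomial.C 1 * Polynomial.X ^ 2 + Polynomial.C (-1) * Polynomial.X +
            Polynomial.C (-1) := by
        simp [sub_eq_add_neg]
      rw [this, Polynomial.degree_quadratic one_ne_zero]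
      norm_num
    obtain ⟨t, ht⟩ := IsAlgClosed.exists_root _ hdeg
    exact ⟨t, by simpa using ht⟩
  have ht0 : t ≠ 0 := by
    rintro rfl
    norm_num at ht
  obtain ⟨s, hs⟩ := IsAlgClosed.exists_pow_nat_eq t hn
  have hs0 : s ≠ 0 := by
    rintro rfl
    rw [zero_pow hn.ne'] at hs
    exact ht0 hs.symm
  intro h
  have h2 := ORing.lift_z (n := n) (k := k) (fun _ : Fin 5 => s) (by
    intro j
    simp only [hs]
    linear_combination ht) j
  rw [h, map_zero] at h2
  exact hs0 h2.symm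

section tau

variable {k} {Q : Type} [Field Q] [Algebra k Q]

/-- images of the generators under the transposition -/
def tauImg (y : Fin 5 → Q) : Fin 5 → Q :=
  ![-y 0 / (y 2 * y 3), -(y 3 * y 4), (y 3)⁻¹, (y 2)⁻¹, -(y 1 * y 2)]

theorem tauImg_rel (y : Fin 5 → Q) (h2 : y 2 ≠ 0) (h3 : y 3 ≠ 0)
    (hy : ∀ j, y j ^ 7 * y (j + 1) ^ 7 = 1 + y (j + 3) ^ 7) (j : Fin 5) :
    tauImg y j ^ 7 * tauImg y (j + 1) ^ 7 = 1 + tauImg y (j + 3) ^ 7 := by
  have r0 := hy 0
  have r1 := hy 1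
  have r2 := hy 2
  have r3 := hy 3
  have r4 := hy 4
  simp only [show (0 : Fin 5) + 1 = 1 from rfl, show (0 : Fin 5) + 3 = 3 from rfl,
    show (1 : Fin 5) + 1 = 2 from rfl, show (1 : Fin 5) + 3 = 4 from rfl,
    show (2 : Fin 5) + 1 = 3 from rfl, show (2 : Fin 5) + 3 = 0 from rfl,
    show (3 : Fin 5) + 1 = 4 from rfl, show (3 : Fin 5) + 3 = 1 from rfl,
    show (4 : Fin 5) + 1 = 0 from rfl, show (4 : Fin 5) + 3 = 2 from rfl] at r0 r1 r2 r3 r4
  have h2' : y 2 ^ 7 ≠ 0 := pow_ne_zero _ h2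
  have h3' : y 3 ^ 7 ≠ 0 := pow_ne_zero _ h3
  fin_cases j
  · show (-y 0 / (y 2 * y 3)) ^ 7 * (-(y 3 * y 4)) ^ 7 = 1 + ((y 2)⁻¹) ^ 7
    field_simp
    linear_combination r4
  · show (-(y 3 * y 4)) ^ 7 * ((y 3)⁻¹) ^ 7 = 1 + (-(y 1 * y 2)) ^ 7
    field_simp
    linear_combination r1
  · show ((y 3)⁻¹) ^ 7 * ((y 2)⁻¹) ^ 7 = 1 + (-y 0 / (y 2 * y 3)) ^ 7
    field_simp
    linear_combination -r2
  · show ((y 2)⁻¹) ^ 7 * (-(y 1 * y 2)) ^ 7 = 1 + (-(y 3 * y 4)) ^ 7
    field_simp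
    linear_combination r3
  · show (-(y 1 * y 2)) ^ 7 * (-y 0 / (y 2 * y 3)) ^ 7 = 1 + ((y 3)⁻¹) ^ 7
    field_simp
    linear_combination r0

theorem tauImg_tauImg (y : Fin 5 → Q) (h2 : y 2 ≠ 0) (h3 : y 3 ≠ 0) :
    tauImg (tauImg y) = y := by
  funext j
  fin_cases j
  · show -(-y 0 / (y 2 * y 3)) / ((y 3)⁻¹ * (y 2)⁻¹) = y 0
    field_simp
  · show -((y 2)⁻¹ * (-(y 1 * y 2))) = y 1
    field_simp
  · show ((y 2)⁻¹)⁻¹ = y 2
    simp
  · show ((y 3)⁻¹)⁻¹ = y 3
    simp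
  · show -(-(y 3 * y 4) * (y 3)⁻¹) = y 4
    field_simp

end tau

section final

variable {k} [IsAlgClosed k] [IsDomain (ORing 7 k)]

/-- the coordinates in the fraction field -/
noncomputable def zQ (k : Type) [Field k] [IsDomain (ORing 7 k)] (j : Fin 5) :
    FractionRing (ORing 7 k) := algebraMap _ _ (z 7 k j)

theorem zQ_ne_zero (j : Fin 5) : zQ k j ≠ 0 := by
  intro h
  have := (IsFractionRing.injective (ORing 7 k) (FractionRing (ORing 7 k)))
    (h.trans (map_zero (algebraMap (ORing 7 k) (FractionRing (ORing 7 k)))).symm)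
  exact z_ne_zero k 7 (by norm_num) j this

theorem zQ_rel (j : Fin 5) : zQ k j ^ 7 * zQ k (j + 1) ^ 7 = 1 + zQ k (j + 3) ^ 7 := by
  have := congrArg (algebraMap (ORing 7 k) (FractionRing (ORing 7 k))) (z_rel 7 k j)
  rw [map_mul, map_pow, map_pow, map_add, map_one, map_pow] at this
  exact this

/-- `τ` on `O` -/
noncomputable def tauO (k : Type) [Field k] [IsAlgClosed k] [IsDomain (ORing 7 k)] :
    ORing 7 k →ₐ[k] FractionRing (ORing 7 k) :=
  ORing.lift (tauImg (zQ k)) (tauImg_rel (zQ k) (zQ_ne_zero 2) (zQ_ne_zero 3) zQ_rel)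

theorem tauO_z (j : Fin 5) : tauO k (z 7 k j) = tauImg (zQ k) j := by
  simp [tauO]

theorem tauO_key (x : ORing 7 k) : ∃ (N : ℕ) (x' : ORing 7 k),
    (zQ k 2 * zQ k 3) ^ N * tauO k x = algebraMap _ (FractionRing (ORing 7 k)) x' ∧
    (zQ k 2 * zQ k 3) ^ N * tauO k x' = algebraMap _ (FractionRing (ORing 7 k)) x := by
  have h2 := zQ_ne_zero (k := k) 2
  have h3 := zQ_ne_zero (k := k) 3
  -- raising `N`
  have hraise : ∀ (x : ORing 7 k) (M N : ℕ) (x' : ORing 7 k),
      (zQ k 2 * zQ k 3) ^ N * tauO k x = algebraMap _ (FractionRing (ORing 7 k)) x' →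
      (zQ k 2 * zQ k 3) ^ N * tauO k x' = algebraMap _ (FractionRing (ORing 7 k)) x →
      ∃ x'' : ORing 7 k,
      (zQ k 2 * zQ k 3) ^ (N + M) * tauO k x = algebraMap _ (FractionRing (ORing 7 k)) x'' ∧
      (zQ k 2 * zQ k 3) ^ (N + M) * tauO k x'' = algebraMap _ (FractionRing (ORing 7 k)) x := by
    intro x M N x' e1 e2
    refine ⟨(z 7 k 2 * z 7 k 3) ^ M * x', ?_, ?_⟩
    · rw [map_mul, map_pow, map_mul, ← e1]
      show _ = (zQ k 2 * zQ k 3) ^ M * _
      ring
    · have e3 : tauO k (z 7 k 2 * z 7 k 3) = (zQ k 2 * zQ k 3)⁻¹ := by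
        rw [map_mul, tauO_z, tauO_z]
        show (zQ k 3)⁻¹ * (zQ k 2)⁻¹ = _
        rw [mul_inv, mul_comm]
      rw [map_mul, map_pow, e3, pow_add, ← e2]
      have : (zQ k 2 * zQ k 3) ^ M ≠ 0 := pow_ne_zero _ (mul_ne_zero h2 h3)
      rw [inv_pow]
      field_simp
  have hx : x ∈ Algebra.adjoin k (Set.range (z 7 k)) := by
    rw [ORing.adjoin_range_z]; exact Algebra.mem_top
  induction hx using Algebra.adjoin_induction with
  | mem x hx =>
    obtain ⟨j, rfl⟩ := hx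
    fin_cases j
    · refine ⟨1, -z 7 k 0, ?_, ?_⟩
      · show _ * tauO k (z 7 k 0) = _
        rw [tauO_z]
        show (zQ k 2 * zQ k 3) ^ 1 * (-zQ k 0 / (zQ k 2 * zQ k 3)) = _
        rw [map_neg]
        show _ = - zQ k 0
        field_simp
      · rw [map_neg, tauO_z]
        show (zQ k 2 * zQ k 3) ^ 1 * -(-zQ k 0 / (zQ k 2 * zQ k 3)) = zQ k 0
        field_simp
    · refine ⟨0, -(z 7 k 3 * z 7 k 4), ?_, ?_⟩
      · show _ * tauO k (z 7 k 1) = _
        rw [tauO_z]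
        show (zQ k 2 * zQ k 3) ^ 0 * (-(zQ k 3 * zQ k 4)) = _
        rw [map_neg, map_mul]
        show _ = - (zQ k 3 * zQ k 4)
        ring
      · rw [map_neg, map_mul, tauO_z, tauO_z]
        show (zQ k 2 * zQ k 3) ^ 0 * -((zQ k 2)⁻¹ * (-(zQ k 1 * zQ k 2))) = zQ k 1
        field_simp
    · refine ⟨1, z 7 k 2, ?_, ?_⟩
      · show _ * tauO k (z 7 k 2) = _
        rw [tauO_z]
        show (zQ k 2 * zQ k 3) ^ 1 * (zQ k 3)⁻¹ = zQ k 2
        field_simp
      · show _ * tauO k (z 7 k 2) = _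
        rw [tauO_z]
        show (zQ k 2 * zQ k 3) ^ 1 * (zQ k 3)⁻¹ = zQ k 2
        field_simp
    · refine ⟨1, z 7 k 3, ?_, ?_⟩
      · show _ * tauO k (z 7 k 3) = _
        rw [tauO_z]
        show (zQ k 2 * zQ k 3) ^ 1 * (zQ k 2)⁻¹ = zQ k 3
        field_simp
      · show _ * tauO k (z 7 k 3) = _
        rw [tauO_z]
        show (zQ k 2 * zQ k 3) ^ 1 * (zQ k 2)⁻¹ = zQ k 3
        field_simp
    · refine ⟨0, -(z 7 k 1 * z 7 k 2), ?_, ?_⟩
      · show _ * tauO k (z 7 k 4) = _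
        rw [tauO_z]
        show (zQ k 2 * zQ k 3) ^ 0 * (-(zQ k 1 * zQ k 2)) = _
        rw [map_neg, map_mul]
        show _ = - (zQ k 1 * zQ k 2)
        ring
      · rw [map_neg, map_mul, tauO_z, tauO_z]
        show (zQ k 2 * zQ k 3) ^ 0 * -((-(zQ k 3 * zQ k 4)) * (zQ k 3)⁻¹) = zQ k 4
        field_simp
  | algebraMap r =>
    refine ⟨0, algebraMap k _ r, ?_, ?_⟩
    · rw [pow_zero, one_mul, AlgHom.commutes, ← IsScalarTower.algebraMap_apply]
    · rw [pow_zero, one_mul, AlgHom.commutes, ← IsScalarTower.algebraMap_apply]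
  | add x y _ _ hx hy =>
    obtain ⟨N, x', e1, e2⟩ := hx
    obtain ⟨M, y', e3, e4⟩ := hy
    obtain ⟨x'', e5, e6⟩ := hraise x M N x' e1 e2
    obtain ⟨y'', e7, e8⟩ := hraise y N M y' e3 e4
    rw [add_comm M N] at e7 e8
    refine ⟨N + M, x'' + y'', ?_, ?_⟩
    · rw [map_add, map_add, mul_add, e5, e7]
    · rw [map_add, map_add, mul_add, e6, e8]
  | mul x y _ _ hx hy =>
    obtain ⟨N, x', e1, e2⟩ := hx
    obtain ⟨M, y', e3, e4⟩ := hy
    refine ⟨N + M, x' * y', ?_, ?_⟩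
    · rw [map_mul, map_mul, ← e1, ← e3]; ring
    · rw [map_mul, map_mul, ← e2, ← e4]; ring

theorem tauO_injective : Function.Injective (tauO k) := by
  rw [injective_iff_map_eq_zero]
  intro x hx
  obtain ⟨N, x', e1, e2⟩ := tauO_key x
  rw [hx, mul_zero] at e1
  have hinj := IsFractionRing.injective (ORing 7 k) (FractionRing (ORing 7 k))
  have h0 : x' = 0 := hinj (by rw [← e1, map_zero])
  rw [h0, map_zero, mul_zero] at e2
  exact hinj (by rw [← e2, map_zero])

/-- `τ` on `Q` -/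
noncomputable def tauQ' (k : Type) [Field k] [IsAlgClosed k] [IsDomain (ORing 7 k)] :
    FractionRing (ORing 7 k) →ₐ[k] FractionRing (ORing 7 k) :=
  IsFractionRing.liftAlgHom (tauO_injective (k := k))

theorem tauQ'_algebraMap (x : ORing 7 k) : tauQ' k (algebraMap _ _ x) = tauO k x := by
  show IsFractionRing.liftAlgHom (tauO_injective (k := k)) _ = _
  rw [IsFractionRing.liftAlgHom_apply]
  exact IsFractionRing.lift_algebraMap _ _

theorem tauQ'_zQ (j : Fin 5) : tauQ' k (zQ k j) = tauImg (zQ k) j := by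
  rw [zQ, tauQ'_algebraMap, tauO_z]

theorem tauQ'_invol : (tauQ' k).comp (tauQ' k) = AlgHom.id k _ := by
  apply AlgHom.coe_ringHom_injective
  apply IsFractionRing.ringHom_ext (A := ORing 7 k)
  intro x
  have h : ((tauQ' k).comp (tauQ' k)).comp (IsScalarTower.toAlgHom k (ORing 7 k)
      (FractionRing (ORing 7 k))) = IsScalarTower.toAlgHom k (ORing 7 k)
      (FractionRing (ORing 7 k)) := by
    apply ORing.algHom_ext
    intro j
    show tauQ' k (tauQ' k (zQ k j)) = zQ k j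
    rw [tauQ'_zQ]
    have e := congrFun (tauImg_tauImg (zQ k) (zQ_ne_zero 2) (zQ_ne_zero 3)) j
    conv_rhs => rw [← e]
    fin_cases j
    · show tauQ' k (-zQ k 0 / (zQ k 2 * zQ k 3)) = _
      rw [map_div₀, map_neg, map_mul, tauQ'_zQ, tauQ'_zQ, tauQ'_zQ]
      rfl
    · show tauQ' k (-(zQ k 3 * zQ k 4)) = _
      rw [map_neg, map_mul, tauQ'_zQ, tauQ'_zQ]
      rfl
    · show tauQ' k ((zQ k 3)⁻¹) = _
      rw [map_inv₀, tauQ'_zQ]
      rfl
    · show tauQ' k ((zQ k 2)⁻¹) = _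
      rw [map_inv₀, tauQ'_zQ]
      rfl
    · show tauQ' k (-(zQ k 1 * zQ k 2)) = _
      rw [map_neg, map_mul, tauQ'_zQ, tauQ'_zQ]
      rfl
  exact DFunLike.congr_fun h x

noncomputable def tauQ (k : Type) [Field k] [IsAlgClosed k] [IsDomain (ORing 7 k)] :
    FractionRing (ORing 7 k) ≃ₐ[k] FractionRing (ORing 7 k) :=
  AlgEquiv.ofAlgHom (tauQ' k) (tauQ' k) tauQ'_invol tauQ'_invol

noncomputable def rotQ (k : Type) [Field k] [IsDomain (ORing 7 k)] :
    FractionRing (ORing 7 k) ≃ₐ[k] FractionRing (ORing 7 k) :=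
  IsFractionRing.algEquivOfAlgEquiv (rotEquiv k 7)

omit [IsAlgClosed k] in
theorem rotQ_zQ (j : Fin 5) : rotQ k (zQ k j) = zQ k (j + 1) := by
  rw [zQ, rotQ, IsFractionRing.algEquivOfAlgEquiv_algebraMap, rotEquiv_z, zQ]

/-- **F5, END PRODUCT**: every datum `D` whose `F m` is the image of `Fil 7 k m` is regular at all
its points. -/
theorem allPtRegular (h7 : (7 : k) ≠ 0) (D : TData k (FractionRing (ORing 7 k)))
    (hF : ∀ m q, q ∈ D.F m ↔ ∃ x ∈ Fil 7 k m, algebraMap _ (FractionRing (ORing 7 k)) x = q)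
    (hu : D.u = algebraMap _ (FractionRing (ORing 7 k)) (uO 7 k))
    (hv : D.v = algebraMap _ (FractionRing (ORing 7 k)) (vO 7 k)) : AllPtRegular D := by
  have hz : Is7 D (zQ k) := by
    refine ⟨zQ_rel, ?_, ?_, ?_⟩
    · intro m
      have e1 : D.F m = (Fil 7 k m).map (IsScalarTower.toAlgHom k (ORing 7 k)
          (FractionRing (ORing 7 k))).toLinearMap := by
        ext q
        rw [hF, Submodule.mem_map]
        rfl
      rw [e1, Fil, Submodule.map_span]
      congr 1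
      ext q
      constructor
      · rintro ⟨_, ⟨b, hb, rfl⟩, rfl⟩
        refine ⟨b, hb, ?_⟩
        show algebraMap _ _ (zm 7 k b) = _
        rw [zm, map_prod]
        simp only [map_pow]
        rfl
      · rintro ⟨b, hb, rfl⟩
        refine ⟨_, ⟨b, hb, rfl⟩, ?_⟩
        show algebraMap _ _ (zm 7 k b) = _
        rw [zm, map_prod]
        simp only [map_pow]
        rfl
    · rw [hu, uO, map_add, map_add]; rfl
    · rw [hv, vO, map_add, map_add]; rfl
  exact hz.allPtRegular h7 (zQ_ne_zero 2) (zQ_ne_zero 3) (rotQ k) rotQ_zQ (tauQ k)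
    (tauQ'_zQ 0) (tauQ'_zQ 1) (tauQ'_zQ 2) (tauQ'_zQ 3) (tauQ'_zQ 4)

end final

end Pt

end Crest.Agent.R169
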